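import Vale.Agent.P015.H141.Prune

/-! Combination of the pruning lemma with the two-level theorem: the levels are given as
sets of primes in `(x, A x]`. -/

namespace Vale.Agent.P015.H65

open Finset Vale.Agent.P006.CLS Vale.Agent.P015.H222 Vale.Agent.P015.R2.H116
  Vale.Agent.P015.H141

/-- Dyadic pigeonhole inside `(x, A x]`. -/
theorem dyadic {A x : ℕ} (hA : 2 ≤ A) (hx : 1 ≤ x) (P : Finset ℕ)
    (hP : ∀ p ∈ P, x < p ∧ p ≤ A * x) :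
    ∃ i : ℕ, 2 ^ i ≤ A ∧ ∃ P' ⊆ P, P.card ≤ A * P'.card ∧
      ∀ p ∈ P', 2 ^ (i + 1) * x ≤ 2 * p ∧ p ≤ 2 ^ (i + 1) * x := by
  classical
  have hmap : ∀ p ∈ P, Nat.log 2 ((p - 1) / x) ∈ range (Nat.log 2 A + 1) := by
    intro p hp
    obtain ⟨h1, h2⟩ := hP p hp
    rw [mem_range, Nat.lt_succ_iff]
    refine Nat.log_mono_right ?_
    have : (p - 1) / x < A := by
      rw [Nat.div_lt_iff_lt_mul (by omega)]
      omega
    omega
  have hsum : P.card = ∑ i ∈ range (Nat.log 2 A + 1),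
      (P.filter (fun p => Nat.log 2 ((p - 1) / x) = i)).card :=
    Finset.card_eq_sum_card_fiberwise hmap
  obtain ⟨i, hi, hmax⟩ := Finset.exists_max_image (range (Nat.log 2 A + 1))
    (fun i => (P.filter (fun p => Nat.log 2 ((p - 1) / x) = i)).card) ⟨0, by simp⟩
  refine ⟨i, ?_, P.filter (fun p => Nat.log 2 ((p - 1) / x) = i), filter_subset _ _, ?_, ?_⟩
  · rw [mem_range] at hi
    exact Nat.pow_le_of_le_log (by omega) (by omega)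
  · have h1 : P.card ≤ (Nat.log 2 A + 1) *
        (P.filter (fun p => Nat.log 2 ((p - 1) / x) = i)).card := by
      calc P.card = _ := hsum
        _ ≤ ∑ _j ∈ range (Nat.log 2 A + 1),
            (P.filter (fun p => Nat.log 2 ((p - 1) / x) = i)).card :=
          Finset.sum_le_sum fun j hj => hmax j hj
        _ = _ := by rw [Finset.sum_const, card_range, smul_eq_mul]
    have h2 : Nat.log 2 A < A := Nat.log_lt_self 2 (by omega)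
    exact h1.trans (Nat.mul_le_mul_right _ h2)
  · intro p hp
    rw [mem_filter] at hp
    obtain ⟨hp1, hp2⟩ := hp
    obtain ⟨h1, h2⟩ := hP p hp1
    have hpos : 1 ≤ (p - 1) / x := by
      rw [Nat.le_div_iff_mul_le (by omega)]
      omega
    have h3 : 2 ^ i ≤ (p - 1) / x := by
      rw [← hp2]
      exact Nat.pow_log_le_self 2 (by omega)
    have h4 : (p - 1) / x < 2 ^ (i + 1) := by
      rw [← hp2]
      exact Nat.lt_pow_succ_log_self (by norm_num) _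
    rw [Nat.le_div_iff_mul_le (by omega)] at h3
    rw [Nat.div_lt_iff_lt_mul (by omega)] at h4
    refine ⟨?_, by omega⟩
    have h5 : 2 ^ i * x ≤ p := h3.trans (Nat.sub_le _ _)
    calc 2 ^ (i + 1) * x = 2 * (2 ^ i * x) := by ring
      _ ≤ 2 * p := Nat.mul_le_mul_left _ h5

/-- monotonicity of `Law` -/
theorem law_mono {Λ Λ' : ℝ} (h : Λ ≤ Λ') {P P' : Finset ℕ} (hP : P' ⊆ P)
    {q : ∀ p : ℕ, ZMod p → ℝ} (hq : Law Λ P q) : Law Λ' P' q :=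
  ⟨fun p hp => hq.nonneg p (hP hp), fun p hp => hq.one p (hP hp),
    fun p hp c => (hq.sup p (hP hp) c).trans h⟩

/-- one level, in dyadic form -/
theorem level {Λ : ℝ} {A x : ℕ} (hΛ : 10 ≤ Λ) (hA : 2 ≤ A) (hAΛ : (A : ℝ) ≤ Λ) (hx : 1 ≤ x)
    {r : ℕ → ℤ} {P : Finset ℕ} (hr : Rts r P) (hP : ∀ p ∈ P, x < p ∧ p ≤ A * x)
    (hmany : (x : ℝ) ≤ Λ * P.card) :
    ∃ Q : ℕ, ∃ P' ⊆ P, x ≤ Q ∧ Q ≤ 2 * A * x ∧ Lev (Λ ^ 4) r Q P' := by
  obtain ⟨i, hi, P', hP', hc, hr'⟩ := dyadic hA hx P hP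
  have h2i : 2 ^ (i + 1) * x ≤ 2 * A * x := by
    rw [pow_succ]
    exact Nat.mul_le_mul_right _ (by omega)
  refine ⟨2 ^ (i + 1) * x, P', hP', ?_, h2i, ?_, hr', ?_⟩
  · exact Nat.le_mul_of_pos_left _ (by positivity)
  · exact fun p hp => hr p (hP' hp)
  · have h1 : ((2 ^ (i + 1) * x : ℕ) : ℝ) ≤ 2 * Λ * x := by
      have : ((2 ^ (i + 1) * x : ℕ) : ℝ) ≤ ((2 * A * x : ℕ) : ℝ) := by exact_mod_cast h2i
      refine this.trans ?_
      push_cast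
      have hx0 : (0 : ℝ) ≤ x := by positivity
      nlinarith
    have h2 : (P.card : ℝ) ≤ Λ * P'.card := by
      have : (P.card : ℝ) ≤ A * P'.card := by exact_mod_cast hc
      exact this.trans (mul_le_mul_of_nonneg_right hAΛ (by positivity))
    have hΛ0 : 0 ≤ Λ := by linarith
    calc ((2 ^ (i + 1) * x : ℕ) : ℝ) ≤ 2 * Λ * x := h1
      _ ≤ 2 * Λ * (Λ * (Λ * P'.card)) := by
        refine mul_le_mul_of_nonneg_left (hmany.trans ?_) (by positivity)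
        exact mul_le_mul_of_nonneg_left h2 hΛ0
      _ = 2 * (Λ ^ 3 * P'.card) := by ring
      _ ≤ Λ * (Λ ^ 3 * P'.card) := mul_le_mul_of_nonneg_right (by linarith) (by positivity)
      _ = Λ ^ 4 * P'.card := by ring

/-- The masses on a large subset. -/
theorem mass_sub {Λ : ℝ} {W V : Finset (ℤ × ℤ)} (hV : V ⊆ W)
    (hc : 10 * ((W \ V).card : ℝ) ≤ W.card) {r : ℕ → ℤ} {P : Finset ℕ}
    {q : ∀ p : ℕ, ZMod p → ℝ} (hq : Law Λ P q)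
    (hm : ∀ p ∈ P, 16 * (p * ∑ w ∈ W, qa r q p w) ≤ W.card) :
    ∀ p ∈ P, 8 * p * ∑ w ∈ V, qa r q p w ≤ V.card := by
  intro p hp
  have h1 : ∑ w ∈ V, qa r q p w ≤ ∑ w ∈ W, qa r q p w :=
    Finset.sum_le_sum_of_subset_of_nonneg hV fun w _ _ => hq.nonneg p hp _
  have h2 : ((W \ V).card : ℝ) + V.card = W.card := by
    exact_mod_cast Finset.card_sdiff_add_card_eq_card hV
  have h3 := hm p hp
  have h4 : (p : ℝ) * ∑ w ∈ V, qa r q p w ≤ p * ∑ w ∈ W, qa r q p w :=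
    mul_le_mul_of_nonneg_left h1 (by positivity)
  have h5 : (0 : ℝ) ≤ V.card := by positivity
  nlinarith

/-- **Combination.** -/
theorem comb (hT : TwoLevel) : ∃ E : ℕ, 1 ≤ E ∧
    ∀ (Λ : ℝ) (W : Finset (ℤ × ℤ)) (K A x₀ x : ℕ), Up W K Λ → 2 ≤ A → (A : ℝ) ≤ Λ →
    ∀ (r : ℕ → ℤ) (P₀ P : Finset ℕ) (q₀ q : ∀ p : ℕ, ZMod p → ℝ), Rts r P₀ → Rts r P →
    (∀ p ∈ P₀, x₀ < p ∧ p ≤ A * x₀) → (∀ p ∈ P, x < p ∧ p ≤ A * x) →
    (x₀ : ℝ) ≤ Λ * P₀.card → (x : ℝ) ≤ Λ * P.card → Law Λ P₀ q₀ → Law Λ P q →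
    (∀ p ∈ P₀, 16 * (p * ∑ w ∈ W, qa r q₀ p w) ≤ W.card) →
    (∀ p ∈ P, 16 * (p * ∑ w ∈ W, qa r q p w) ≤ W.card) →
    Λ ^ E ≤ x₀ → (2 * A * x₀) ^ 3 ≤ x → (2 * A * x) ^ 4 ≤ K → False := by
  obtain ⟨a, ha⟩ := hT
  refine ⟨5 * a + 1, by omega, ?_⟩
  intro Λ W K A x₀ x hup hA hAΛ r P₀ P q₀ q hr₀ hr hP₀ hP hm₀ hm hq₀ hq hs₀ hs hE h3 h4
  have hΛ := hup.ten
  have hΛ0 : 0 < Λ := by linarith
  have hΛ1 : 1 ≤ Λ := by linarith
  have hx₀ : 1 ≤ x₀ := by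
    have : (1 : ℝ) ≤ x₀ := (one_le_pow₀ hΛ1).trans hE
    exact_mod_cast this
  have hx : 1 ≤ x := by
    refine le_trans ?_ h3
    exact Nat.one_le_pow _ _ (by positivity)
  -- pruning
  have hW0 : (0 : ℝ) ≤ W.card := by positivity
  have ht : 2 * (K : ℝ) ≤ Λ ^ 2 * W.card := by
    have h1 := hup.size
    nlinarith [mul_nonneg hΛ0.le hW0]
  obtain ⟨V, hVW, hloss, hcv⟩ := prune hup 2 ht
  have hc : 10 * ((W \ V).card : ℝ) ≤ W.card := by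
    have h1 := hup.size
    have h2 : Λ * (((W \ V).card : ℝ) * Λ) ≤ Λ * W.card := by nlinarith
    have h3 := le_of_mul_le_mul_left h2 hΛ0
    have h4 : (0 : ℝ) ≤ (W \ V).card := by positivity
    nlinarith
  -- levels
  obtain ⟨Q₀, P₀', hP₀', hQ₀, hQ₀', hl₀⟩ := level hΛ hA hAΛ hx₀ hr₀ hP₀ hm₀
  obtain ⟨Q, P', hP', hQ, hQ', hl⟩ := level hΛ hA hAΛ hx hr hP hm
  have h45 : Λ ^ 4 ≤ Λ ^ 5 := pow_le_pow_right₀ hΛ1 (by omega)
  have h15 : Λ ≤ Λ ^ (2 + 3) := le_self_pow₀ hΛ1 (by omega)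
  have hlev : ∀ {Q : ℕ} {P : Finset ℕ}, Lev (Λ ^ 4) r Q P → Lev (Λ ^ (2 + 3)) r Q P :=
    fun h => ⟨h.rts, h.rng, h.many.trans (mul_le_mul_of_nonneg_right h45 (by positivity))⟩
  refine ha (Λ ^ (2 + 3)) V K Q₀ Q hcv r P₀' P' q₀ q (hlev hl₀) (hlev hl)
    (law_mono h15 hP₀' hq₀) (law_mono h15 hP' hq)
    (fun p hp => mass_sub hVW hc hq₀ hs₀ p (hP₀' hp))
    (fun p hp => mass_sub hVW hc hq hs p (hP' hp)) ?_ ?_ ?_
  · rw [← pow_mul]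
    calc Λ ^ ((2 + 3) * a) ≤ Λ ^ (5 * a + 1) := pow_le_pow_right₀ hΛ1 (by omega)
      _ ≤ x₀ := hE
      _ ≤ Q₀ := by exact_mod_cast hQ₀
  · exact (Nat.pow_le_pow_left hQ₀' 3).trans (h3.trans hQ)
  · exact (Nat.pow_le_pow_left hQ' 4).trans h4

end Vale.Agent.P015.H65
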